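import Vale.Agent.Lib.P229.Prim

open Real Set Topology Vale.Agent.Lib.P229
open scoped ContDiff

namespace Vale.Agent.Results.P229.A_killing

/-- `F` is a C^∞ isometric immersion into Euclidean 3-space on `U` of the metric
`g₁₁ dx² + 2 g₁₂ dx dy + g₂₂ dy²`: all inner products of partial derivatives match. -/
def IsIsomImm (U : Set (ℝ × ℝ)) (g₁₁ g₁₂ g₂₂ : ℝ × ℝ → ℝ) (F : ℝ × ℝ → Fin 3 → ℝ) : Prop :=
  ContDiffOn ℝ ∞ F U ∧ ∀ p ∈ U,
    (∑ i, fderiv ℝ F p (1, 0) i * fderiv ℝ F p (1, 0) i = g₁₁ p) ∧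
    (∑ i, fderiv ℝ F p (1, 0) i * fderiv ℝ F p (0, 1) i = g₁₂ p) ∧
    (∑ i, fderiv ℝ F p (0, 1) i * fderiv ℝ F p (0, 1) i = g₂₂ p)

/-- Every C^∞ metric `E(x) dx² + 2 B(x) dx dy + G(x) dy²` whose coefficients do not depend on `y`
(a metric with a nowhere vanishing Killing field, no condition on its curvature) is locally
C^∞-realizable in Euclidean 3-space: around each `x₀` on a whole strip. -/
theorem result (J : Set ℝ) (hJ : IsOpen J) (E B G : ℝ → ℝ)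
    (hE : ContDiffOn ℝ ∞ E J) (hB : ContDiffOn ℝ ∞ B J) (hG : ContDiffOn ℝ ∞ G J)
    (hGpos : ∀ x ∈ J, 0 < G x) (hdet : ∀ x ∈ J, B x ^ 2 < E x * G x)
    (x₀ : ℝ) (hx₀ : x₀ ∈ J) :
    ∃ δ > 0, Ioo (x₀ - δ) (x₀ + δ) ⊆ J ∧ ∃ F : ℝ × ℝ → Fin 3 → ℝ,
      IsIsomImm (Ioo (x₀ - δ) (x₀ + δ) ×ˢ univ) (fun p => E p.1) (fun p => B p.1)
        (fun p => G p.1) F := by
  classical
  set g0 : ℝ → ℝ := fun x => sqrt (G x) with hg0def
  have hg0 : ContDiffOn ℝ ∞ g0 J := hG.sqrt fun x hx => (hGpos x hx).ne'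
  have hg0' := (contDiffOn_infty_iff_deriv_of_isOpen hJ).1 hg0
  set g1 : ℝ → ℝ := deriv g0 with hg1def
  have hg1 : ContDiffOn ℝ ∞ g1 J := hg0'.2
  have hg0d : ∀ x ∈ J, HasDerivAt g0 (g1 x) x := fun x hx =>
    ((hg0'.1 x hx).differentiableAt (hJ.mem_nhds hx)).hasDerivAt
  set A : ℝ → ℝ := fun x => E x - B x ^ 2 / G x with hAdef
  have hGne : ∀ x ∈ J, G x ≠ 0 := fun x hx => (hGpos x hx).ne'
  have hA : ContDiffOn ℝ ∞ A J := hE.sub ((hB.pow 2).div hG hGne)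
  have hApos : ∀ x ∈ J, 0 < A x := by
    intro x hx
    have h1 : B x ^ 2 / G x < E x := by
      rw [div_lt_iff₀ (hGpos x hx)]
      exact hdet x hx
    simp only [hAdef]
    linarith
  set k : ℝ := 1 + g1 x₀ ^ 2 / A x₀ with hkdef
  have hA0 := hApos x₀ hx₀
  have hk : 0 < k := by positivity
  have hkne : k ≠ 0 := hk.ne'
  set W : ℝ → ℝ := fun x => A x - (g1 x / k) ^ 2 with hWdef
  have hW : ContDiffOn ℝ ∞ W J := hA.sub ((hg1.div_const k).pow 2)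
  have hW0 : 0 < W x₀ := by
    simp only [hWdef]
    rw [sub_pos, div_pow, div_lt_iff₀ (by positivity)]
    have ht : 0 ≤ g1 x₀ ^ 2 / A x₀ := by positivity
    have e : g1 x₀ ^ 2 = A x₀ * (g1 x₀ ^ 2 / A x₀) := by field_simp
    rw [hkdef]
    nlinarith [mul_pos hA0 (by positivity : 0 < 1 + g1 x₀ ^ 2 / A x₀)]
  have hev : ∀ᶠ x in 𝓝 x₀, 0 < W x :=
    (hW.continuousOn.continuousAt (hJ.mem_nhds hx₀)).eventually (lt_mem_nhds hW0)
  have hS := Filter.inter_mem hev (hJ.mem_nhds hx₀)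
  obtain ⟨δ, hδ, hball⟩ := Metric.mem_nhds_iff.1 hS
  rw [Real.ball_eq_Ioo] at hball
  set I := Ioo (x₀ - δ) (x₀ + δ) with hIdef
  have hIJ : I ⊆ J := fun x hx => (hball hx).2
  have hWpos : ∀ x ∈ I, 0 < W x := fun x hx => (hball hx).1
  refine ⟨δ, hδ, hIJ, ?_⟩
  have hw : ContDiffOn ℝ ∞ (fun x => sqrt (W x)) I :=
    (hW.mono hIJ).sqrt fun x hx => (hWpos x hx).ne'
  have hψ : ContDiffOn ℝ ∞ (fun x => B x / G x) I :=
    (hB.mono hIJ).div (hG.mono hIJ) fun x hx => hGne x (hIJ hx)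
  obtain ⟨h, hh, hhd⟩ := exists_primitive hδ hw
  obtain ⟨φ, hφ, hφd⟩ := exists_primitive hδ hψ
  set U : Set (ℝ × ℝ) := I ×ˢ univ with hUdef
  have hUo : IsOpen U := isOpen_Ioo.prod isOpen_univ
  have hfst : ∀ {f : ℝ → ℝ}, ContDiffOn ℝ ∞ f I → ContDiffOn ℝ ∞ (fun p : ℝ × ℝ => f p.1) U := by
    intro f hf
    exact hf.comp contDiff_fst.contDiffOn fun p hp => hp.1
  have hθ : ContDiffOn ℝ ∞ (fun p : ℝ × ℝ => k * (p.2 + φ p.1)) U :=
    contDiffOn_const.mul (contDiff_snd.contDiffOn.add (hfst hφ))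
  set f0 : ℝ × ℝ → ℝ := fun p => g0 p.1 / k * cos (k * (p.2 + φ p.1)) with hf0def
  set f1 : ℝ × ℝ → ℝ := fun p => g0 p.1 / k * sin (k * (p.2 + φ p.1)) with hf1def
  set f2 : ℝ × ℝ → ℝ := fun p => h p.1 with hf2def
  have hf0 : ContDiffOn ℝ ∞ f0 U :=
    ((hfst (hg0.mono hIJ)).div_const k).mul (Real.contDiff_cos.comp_contDiffOn hθ)
  have hf1 : ContDiffOn ℝ ∞ f1 U :=
    ((hfst (hg0.mono hIJ)).div_const k).mul (Real.contDiff_sin.comp_contDiffOn hθ)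
  have hf2 : ContDiffOn ℝ ∞ f2 U := hfst hh
  set Φ : Fin 3 → ℝ × ℝ → ℝ := ![f0, f1, f2] with hΦdef
  have hΦ : ∀ i, ContDiffOn ℝ ∞ (Φ i) U := by
    intro i
    fin_cases i
    · exact hf0
    · exact hf1
    · exact hf2
  refine ⟨fun p i => Φ i p, contDiffOn_pi.2 hΦ, ?_⟩
  intro p hp
  obtain ⟨x, y⟩ := p
  have hxI : x ∈ I := hp.1
  have hxJ : x ∈ J := hIJ hxI
  have hdiff : ∀ i, DifferentiableAt ℝ (Φ i) (x, y) := fun i =>
    ((hΦ i).differentiableOn (by simp)).differentiableAt (hUo.mem_nhds hp)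
  have hpi : ∀ v, ∀ i, fderiv ℝ (fun (p : ℝ × ℝ) (i : Fin 3) => Φ i p) (x, y) v i
      = fderiv ℝ (Φ i) (x, y) v := by
    intro v i
    rw [fderiv_pi hdiff]
    rfl
  set θ : ℝ := k * (y + φ x) with hθdef
  have hθx : HasDerivAt (fun t => k * (y + φ t)) (k * (B x / G x)) x :=
    (((hφd x hxI).const_add y).const_mul k)
  have hθy : HasDerivAt (fun t => k * (t + φ x)) (k * 1) y :=
    (((hasDerivAt_id y).add_const (φ x)).const_mul k)
  have hg := (hg0d x hxJ).div_const k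
  have d00 : fderiv ℝ (Φ 0) (x, y) (1, 0)
      = g1 x / k * cos θ + g0 x / k * (-sin θ * (k * (B x / G x))) :=
    partial1 (hdiff 0) (hg.mul ((Real.hasDerivAt_cos _).comp x hθx))
  have d10 : fderiv ℝ (Φ 1) (x, y) (1, 0)
      = g1 x / k * sin θ + g0 x / k * (cos θ * (k * (B x / G x))) :=
    partial1 (hdiff 1) (hg.mul ((Real.hasDerivAt_sin _).comp x hθx))
  have d20 : fderiv ℝ (Φ 2) (x, y) (1, 0) = sqrt (W x) :=
    partial1 (hdiff 2) (hhd x hxI)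
  have d01 : fderiv ℝ (Φ 0) (x, y) (0, 1) = g0 x / k * (-sin θ * (k * 1)) :=
    partial2 (hdiff 0) (((Real.hasDerivAt_cos _).comp y hθy).const_mul (g0 x / k))
  have d11 : fderiv ℝ (Φ 1) (x, y) (0, 1) = g0 x / k * (cos θ * (k * 1)) :=
    partial2 (hdiff 1) (((Real.hasDerivAt_sin _).comp y hθy).const_mul (g0 x / k))
  have d21 : fderiv ℝ (Φ 2) (x, y) (0, 1) = 0 :=
    partial2 (hdiff 2) (hasDerivAt_const y (h x))
  have hGx := hGpos x hxJ
  have hgsq : g0 x ^ 2 = G x := sq_sqrt hGx.le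
  have hwsq : sqrt (W x) ^ 2 = W x := sq_sqrt (hWpos x hxI).le
  have hcs : cos θ ^ 2 + sin θ ^ 2 = 1 := cos_sq_add_sin_sq θ
  simp only [Fin.sum_univ_three, hpi, d00, d10, d20, d01, d11, d21]
  refine ⟨?_, ?_, ?_⟩
  · have e : (g1 x / k * cos θ + g0 x / k * (-sin θ * (k * (B x / G x)))) *
          (g1 x / k * cos θ + g0 x / k * (-sin θ * (k * (B x / G x)))) +
        (g1 x / k * sin θ + g0 x / k * (cos θ * (k * (B x / G x)))) *
          (g1 x / k * sin θ + g0 x / k * (cos θ * (k * (B x / G x)))) +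
        sqrt (W x) * sqrt (W x)
        = ((g1 x / k) ^ 2 + (g0 x / k) ^ 2 * (k * (B x / G x)) ^ 2) * (cos θ ^ 2 + sin θ ^ 2)
          + sqrt (W x) ^ 2 := by ring
    have e2 : (g0 x / k) ^ 2 * (k * (B x / G x)) ^ 2 = B x ^ 2 / G x := by
      have e3 : (g0 x / k) ^ 2 * (k * (B x / G x)) ^ 2 = g0 x ^ 2 * (B x / G x) ^ 2 := by
        field_simp
      rw [e3, hgsq]
      field_simp
    rw [e, hcs, hwsq, mul_one, e2]
    simp only [hWdef, hAdef]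
    ring
  · have e : (g1 x / k * cos θ + g0 x / k * (-sin θ * (k * (B x / G x)))) *
          (g0 x / k * (-sin θ * (k * 1))) +
        (g1 x / k * sin θ + g0 x / k * (cos θ * (k * (B x / G x)))) *
          (g0 x / k * (cos θ * (k * 1))) + sqrt (W x) * 0
        = g0 x ^ 2 * (B x / G x) * (cos θ ^ 2 + sin θ ^ 2) := by
      field_simp
      ring
    rw [e, hcs, hgsq, mul_one]
    field_simp
  · have e : (g0 x / k * (-sin θ * (k * 1))) * (g0 x / k * (-sin θ * (k * 1))) +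
        (g0 x / k * (cos θ * (k * 1))) * (g0 x / k * (cos θ * (k * 1))) + 0 * 0
        = g0 x ^ 2 * (cos θ ^ 2 + sin θ ^ 2) := by
      field_simp
      ring
    rw [e, hcs, hgsq, mul_one]

end Vale.Agent.Results.P229.A_killing
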